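import Vale.Agent.P334.Defs
import Vale.Agent.P334.AlgoPT
import Vale.Agent.P334.Client
import Vale.Agent.P334.Step
import Vale.Agent.P334.MW
import Vale.Agent.P334.Pseudo
import Vale.Agent.P334.Reduce
import Vale.Agent.P334.Top
import Vale.Agent.P334.Final

namespace Vale.Agent.Results.P334.Approx

open Vale.Agent.P334

/-- Metric `k`-median has a deterministic polynomial-time `1.999`-approximation; in particular
there is a polynomial-time `c`-approximation for a fixed `c < 2`. -/
theorem result : HasApprox (1999 / 1000) ∧ ∃ c : ℝ, 1 ≤ c ∧ c < 2 ∧ HasApprox c := by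
  have h : HasApprox (1999 / 1000) :=
    final pt_full (alg_stmt (pseudo_stmt mw_stmt (step_stmt client_stmt)) reduce_stmt)
  exact ⟨h, _, by norm_num, by norm_num, h⟩

end Vale.Agent.Results.P334.Approx
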