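import Vale.Agent.P334.Defs
import Vale.Agent.P334.All2

namespace Vale.Agent.Results.P334.Sharp

open Vale.Agent.P334

/-- For every `ε > 0`, metric `k`-median has a deterministic polynomial-time
`(1 + 2 / e + ε)`-approximation. -/
theorem result : ∀ ε : ℝ, 0 < ε → HasApprox (1 + 2 / Real.exp 1 + ε) :=
  fun ε hε => sharp _ (by linarith)

end Vale.Agent.Results.P334.Sharp
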