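import Vale.Agent.P334.Defs
import Vale.Agent.P334.All2

namespace Vale.Agent.Results.P334.SharpInf

open Vale.Agent.P334

/-- Every factor above `1 + 2 / e` is achieved in polynomial time, so the infimum of the achieved
factors is at most `1 + 2 / e < 2`, and it equals `1 + 2 / e` as soon as no smaller factor is
achieved. -/
theorem result : (∀ c : ℝ, 1 + 2 / Real.exp 1 < c → HasApprox c) ∧
    (∃ c : ℝ, 1 ≤ c ∧ c < 2 ∧ HasApprox c) ∧
    sInf {c : ℝ | 1 ≤ c ∧ HasApprox c} ≤ 1 + 2 / Real.exp 1 ∧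
    ((∀ δ : ℝ, 0 < δ → ¬ HasApprox (1 + 2 / Real.exp 1 - δ)) →
      sInf {c : ℝ | 1 ≤ c ∧ HasApprox c} = 1 + 2 / Real.exp 1) := by
  have h0 : 0 < 2 / Real.exp 1 := by positivity
  have h1 : 2 / Real.exp 1 < 1 := by
    rw [div_lt_one (Real.exp_pos 1)]
    linarith [Real.exp_one_gt_d9]
  have h2 : sInf {c : ℝ | 1 ≤ c ∧ HasApprox c} ≤ 1 + 2 / Real.exp 1 :=
    le_of_forall_gt_imp_ge_of_dense fun c hc =>
      csInf_le ⟨1, fun _ h => h.1⟩ ⟨by linarith, sharp c hc⟩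
  refine ⟨sharp, ⟨(3 + 2 / Real.exp 1) / 2, by linarith, by linarith, sharp _ (by linarith)⟩, h2,
    fun h => h2.antisymm (le_csInf ⟨2, by norm_num, sharp _ (by linarith)⟩ fun c hc => ?_)⟩
  by_contra hlt
  refine h (1 + 2 / Real.exp 1 - c) (by linarith [not_le.1 hlt]) ?_
  simpa using hc.2

end Vale.Agent.Results.P334.SharpInf
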